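import Vale.Agent.P291.H882.Arr

/-!
# Intersection lemma for cut ideals

`V` is a set of vertices, `B ⊆ V` a finite set (the boxes), the other vertices are framing
vertices.  `cI B L` is the ideal generated by the cut products `Y L U`, `∅ ≠ U ⊆ B`.
Main result `inter`: if `B` is nonempty, then the intersection over `u ∈ B` of the ideals
`(Y L {u}) + cI (B - u) (L - u)` is `cI B L`.
-/

open MvPolynomial

open scoped Classical

namespace Vale.Agent.P291.H276.Inter

open Vale.Agent.P291.H882

noncomputable section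

variable {k : Type*} [CommRing k] {V : Type*}

/-- the ideal of the cut products of the nonempty subsets of `B` -/
def cI (B : Finset V) (L : Multiset (Edge k V)) : Ideal (MvPolynomial V k) :=
  Ideal.span {z | ∃ U : Finset V, U.Nonempty ∧ U ⊆ B ∧ z = Y L (U : Set V)}

/-- the edges which do not involve `u` -/
def rem (u : V) (L : Multiset (Edge k V)) : Multiset (Edge k V) :=
  L.filter (fun e => e.1 ≠ u ∧ e.2.1 ≠ u)

/-- the ideal for the box `u` -/
def LH (B : Finset V) (L : Multiset (Edge k V)) (u : V) : Ideal (MvPolynomial V k) :=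
  Ideal.span {Y L ({u} : Set V)} ⊔ cI (B.erase u) (rem u L)

theorem Y_mem {B : Finset V} {L : Multiset (Edge k V)} {U : Finset V} (h : U.Nonempty)
    (h' : U ⊆ B) : Y L (U : Set V) ∈ cI B L := Ideal.subset_span ⟨U, h, h', rfl⟩

theorem projList_sub_mem' (B : Finset V) (L : Multiset (Edge k V)) (T : List (Set V))
    (hT : ∀ U ∈ T, ∃ U' : Finset V, U'.Nonempty ∧ U' ⊆ B ∧ U = (U' : Set V))
    (g : MvPolynomial V k) : projList L T g - g ∈ cI B L := by
  induction T with
  | nil => simp [projList]
  | cons U T ih =>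
    have ih' := ih (fun U' h => hT U' (List.mem_cons_of_mem _ h))
    obtain ⟨U', h1, h2, h3⟩ := hT U List.mem_cons_self
    rw [projList_cons]
    have : projList L T g - proj L U (projList L T g) - g =
      (projList L T g - g) - proj L U (projList L T g) := by ring
    rw [this]
    refine Ideal.sub_mem _ ih' ?_
    obtain ⟨s, hs, hY⟩ := Ys_eq L U
    unfold proj
    rw [hY, h3]
    exact Ideal.mul_mem_right _ _ (Ideal.mul_mem_left _ _ (Y_mem h1 h2))

theorem proj_mul_of_inv {L : Multiset (Edge k V)} {U : Set V} {c : MvPolynomial V k}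
    (hc : shift U c = Polynomial.C c) (g : MvPolynomial V k) :
    proj L U (c * g) = c * proj L U g := by
  unfold proj
  rw [q_mul_of_inv hc]; ring

theorem projList_mul_of_inv {L : Multiset (Edge k V)} {T : List (Set V)} {c : MvPolynomial V k}
    (hc : ∀ U ∈ T, shift U c = Polynomial.C c) (g : MvPolynomial V k) :
    projList L T (c * g) = c * projList L T g := by
  induction T with
  | nil => rfl
  | cons U T ih =>
    rw [projList_cons, projList_cons, ih (fun U' h => hc U' (List.mem_cons_of_mem _ h)),
      proj_mul_of_inv (hc U List.mem_cons_self)]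
    ring

theorem shift_Y_rem (u : V) (L : Multiset (Edge k V)) (U : Set V) :
    shift ({u} : Set V) (Y (rem u L) U) = Polynomial.C (Y (rem u L) U) := by
  unfold Y
  rw [map_multiset_prod, map_multiset_prod, Multiset.map_map, Multiset.map_map]
  congr 1
  apply Multiset.map_congr rfl
  intro e he
  refine shift_form_of_not_cuts ?_
  have h1 := (Multiset.mem_filter.1 (Multiset.mem_filter.1 he).1).2
  unfold cuts
  simp [h1.1, h1.2]

/-- the list of the nonempty subsets of `B` -/
def lst (B : Finset V) : List (Set V) :=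
  ((B.powerset.filter (fun U => U.Nonempty)).toList).map (fun U : Finset V => (U : Set V))

theorem mem_lst {B : Finset V} {U : Set V} :
    U ∈ lst B ↔ ∃ U' : Finset V, U'.Nonempty ∧ U' ⊆ B ∧ U = (U' : Set V) := by
  unfold lst
  rw [List.mem_map]
  constructor
  · rintro ⟨U', h, rfl⟩
    rw [Finset.mem_toList, Finset.mem_filter, Finset.mem_powerset] at h
    exact ⟨U', h.2, h.1, rfl⟩
  · rintro ⟨U', h1, h2, rfl⟩
    refine ⟨U', ?_, rfl⟩
    rw [Finset.mem_toList, Finset.mem_filter, Finset.mem_powerset]
    exact ⟨h2, h1⟩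

/-- the operator of the box `u` -/
def P (B : Finset V) (L : Multiset (Edge k V)) (u : V) (g : MvPolynomial V k) :
    MvPolynomial V k :=
  projList (rem u L) (lst (B.erase u)) (g - proj L {u} g)

theorem P_of_mem {B : Finset V} {L : Multiset (Edge k V)} {u : V} {g : MvPolynomial V k}
    (h : g ∈ LH B L u) : P B L u g = 0 := by
  unfold LH at h
  obtain ⟨x, hx, y, hy, rfl⟩ := Submodule.mem_sup.1 h
  obtain ⟨c, rfl⟩ := Ideal.mem_span_singleton'.1 hx
  unfold P
  have e1 : c * Y L {u} + y - proj L {u} (c * Y L {u} + y) = y - proj L {u} y := by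
    rw [proj_add, mul_comm c, proj_Y_mul]; ring
  rw [e1]
  unfold cI at hy
  refine Submodule.closure_induction
    (p := fun y _ => projList (rem u L) (lst (B.erase u)) (y - proj L {u} y) = 0) ?_ ?_ ?_ hy
  · rw [proj_zero, sub_zero, map_zero]
  · intro x y _ _ hx hy
    rw [proj_add]
    have : x + y - (proj L {u} x + proj L {u} y) = (x - proj L {u} x) + (y - proj L {u} y) := by
      ring
    rw [this, map_add, hx, hy, add_zero]
  · rintro r x ⟨U, hU, hU', rfl⟩
    rw [smul_eq_mul, mul_comm r, proj_mul_of_inv (shift_Y_rem u L _), ← mul_sub]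
    exact projList_kills _ _ (mem_lst.2 ⟨U, hU, hU', rfl⟩) _

theorem P_sub_mem (B : Finset V) (L : Multiset (Edge k V)) (u : V) (g : MvPolynomial V k) :
    P B L u g - g ∈ LH B L u := by
  unfold P LH
  have h1 := projList_sub_mem' (B.erase u) (rem u L) (lst (B.erase u))
    (fun U hU => mem_lst.1 hU) (g - proj L {u} g)
  have h2 : proj L {u} g ∈ Ideal.span {Y L ({u} : Set V)} := by
    obtain ⟨s, hs, hY⟩ := Ys_eq L {u}
    unfold proj
    rw [hY]
    exact Ideal.mul_mem_right _ _ (Ideal.mul_mem_left _ _ (Ideal.mem_span_singleton_self _))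
  have : projList (rem u L) (lst (B.erase u)) (g - proj L {u} g) - g =
    (projList (rem u L) (lst (B.erase u)) (g - proj L {u} g) - (g - proj L {u} g)) -
      proj L {u} g := by ring
  rw [this]
  exact Ideal.sub_mem _ (Ideal.mem_sup_right h1) (Ideal.mem_sup_left h2)

theorem mem_of_P {B : Finset V} {L : Multiset (Edge k V)} {u : V} {g : MvPolynomial V k}
    (h : P B L u g = 0) : g ∈ LH B L u := by
  have := P_sub_mem B L u g
  rw [h, zero_sub] at this
  exact (Ideal.neg_mem_iff _).1 this

/-- compatibility with adding a framing edge -/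
theorem P_cons {B : Finset V} {L : Multiset (Edge k V)} {u : V} (hu : u ∈ B) {e : Edge k V}
    (he : cuts (B : Set V) e) (g : MvPolynomial V k) :
    P B (e ::ₘ L) u (form e * g) = form e * P B L u g := by
  unfold P
  rw [proj_cons, ← mul_sub]
  by_cases h : e.1 ≠ u ∧ e.2.1 ≠ u
  · have h1 : rem u (e ::ₘ L) = e ::ₘ rem u L := by unfold rem; simp [h]
    rw [h1, projList_edge]
  · have h1 : rem u (e ::ₘ L) = rem u L := by unfold rem; simp only [Multiset.filter_cons, if_neg h, zero_add]
    rw [h1]
    refine projList_mul_of_inv (fun U hU => ?_) _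
    obtain ⟨U', h1, h2, rfl⟩ := mem_lst.1 hU
    refine shift_form_of_not_cuts ?_
    unfold cuts at he ⊢
    rw [Finset.mem_coe, Finset.mem_coe] at he ⊢
    rw [not_not]
    have h3 : u ∉ U' := fun h3 => Finset.notMem_erase u B (h2 h3)
    have h4 : ∀ a, a ∉ B → a ∉ U' := fun a ha h4 => ha (Finset.mem_of_mem_erase (h2 h4))
    by_cases h5 : e.1 = u
    · have h6 : e.2.1 ∉ B := fun h6 => he ⟨fun _ => h6, fun _ => h5 ▸ hu⟩
      rw [h5]
      exact ⟨fun h => absurd h h3, fun h => absurd h (h4 _ h6)⟩
    · have h5' : e.2.1 = u := by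
        by_contra h6
        exact h ⟨h5, h6⟩
      have h6 : e.1 ∉ B := fun h6 => he ⟨fun _ => h5' ▸ hu, fun _ => h6⟩
      rw [h5']
      exact ⟨fun h => absurd h (h4 _ h6), fun h => absurd h h3⟩

/-- the removal lemma for the ideal of a box -/
theorem removal_LH [IsDomain k] {B : Finset V} {L : Multiset (Edge k V)} {u : V} (hu : u ∈ B)
    {e : Edge k V} (he : cuts (B : Set V) e) (he0 : form e ≠ 0) {g : MvPolynomial V k}
    (h : form e * g ∈ LH B (e ::ₘ L) u) : g ∈ LH B L u := by
  have h1 := P_of_mem h
  rw [P_cons hu he] at h1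
  exact mem_of_P ((mul_eq_zero.1 h1).resolve_left he0)

theorem form_ne_zero [Nontrivial k] {U : Set V} {e : Edge k V} (h : cuts U e) : form e ≠ 0 := by
  have h1 : e.1 ≠ e.2.1 := by
    intro h1
    unfold cuts at h
    rw [h1] at h
    exact h Iff.rfl
  intro h0
  have := congrArg (MvPolynomial.eval (fun a => if a = e.1 then 1 - e.2.2 else 0)) h0
  unfold form at this
  simp [h1.symm] at this

theorem cI_congr {B : Finset V} {L M : Multiset (Edge k V)}
    (h : ∀ U : Finset V, U ⊆ B → Y M (U : Set V) = Y L (U : Set V)) {g : MvPolynomial V k}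
    (hg : g ∈ cI B L) : g ∈ cI B M := by
  refine Ideal.span_mono ?_ hg
  rintro z ⟨U, hU, hU', rfl⟩
  exact ⟨U, hU, hU', (h U hU').symm⟩

/-- `Y` of a set is divisible by the `Y` of less edges. -/
theorem Y_dvd_of_le {L M : Multiset (Edge k V)} {U : Set V} (h : M ≤ L.filter (cuts U)) :
    (M.map form).prod ∣ Y L U := by
  unfold Y
  exact Multiset.prod_dvd_prod_of_le (Multiset.map_le_map h)

theorem cI_le_LH {B : Finset V} {L : Multiset (Edge k V)} {u : V} :
    cI B L ≤ LH B L u := by
  unfold cI
  rw [Ideal.span_le]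
  rintro z ⟨U, hU, hUB, rfl⟩
  by_cases h1 : (U.erase u).Nonempty
  · refine Ideal.mem_sup_right ?_
    have h2 : Y (rem u L) ((U.erase u : Finset V) : Set V) ∣ Y L (U : Set V) := by
      conv_lhs => unfold Y
      refine Y_dvd_of_le ?_
      unfold rem
      rw [Multiset.filter_filter]
      refine Multiset.le_filter.2 ⟨Multiset.filter_le _ _, ?_⟩
      intro e he
      rw [Multiset.mem_filter] at he
      obtain ⟨_, h3, h4, h5⟩ := he
      unfold cuts at h3 ⊢
      simpa [h4, h5] using h3
    obtain ⟨c, hc⟩ := h2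
    rw [hc]
    exact Ideal.mul_mem_right _ _ (Y_mem h1 (Finset.erase_subset_erase _ hUB))
  · rw [Finset.not_nonempty_iff_eq_empty, Finset.erase_eq_empty_iff] at h1
    have h2 : U = {u} := h1.resolve_left hU.ne_empty
    subst h2
    refine Ideal.mem_sup_left ?_
    rw [Finset.coe_singleton]
    exact Ideal.mem_span_singleton_self _

theorem form_mul_cI {B : Finset V} {L : Multiset (Edge k V)} {e : Edge k V}
    {g : MvPolynomial V k} (h : g ∈ cI B L) : form e * g ∈ cI B (e ::ₘ L) := by
  unfold cI at h
  refine Submodule.closure_induction (p := fun g _ => form e * g ∈ cI B (e ::ₘ L)) ?_ ?_ ?_ h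
  · rw [mul_zero]; exact Ideal.zero_mem _
  · intro x y _ _ hx hy
    rw [mul_add]; exact Ideal.add_mem _ hx hy
  · rintro r x ⟨U, hU, hU', rfl⟩
    have h1 : form e * (r • Y L (U : Set V)) =
        (r * (if cuts (U : Set V) e then 1 else form e)) * Y (e ::ₘ L) (U : Set V) := by
      rw [Y_cons, smul_eq_mul]
      split_ifs <;> ring
    rw [h1]
    exact Ideal.mul_mem_left _ _ (Y_mem hU hU')

/-! ### contraction -/

/-- the substitution `x_b ↦ x_f + c` -/
def sub (b f : V) (c : k) : MvPolynomial V k →ₐ[k] MvPolynomial V k :=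
  MvPolynomial.aeval (fun a => if a = b then X f + C c else X a)

/-- contraction of an edge -/
def con (b f : V) (c : k) (e : Edge k V) : Edge k V :=
  (if e.1 = b then f else e.1, if e.2.1 = b then f else e.2.1,
    e.2.2 + (if e.1 = b then c else 0) - (if e.2.1 = b then c else 0))

theorem sub_form (b f : V) (c : k) (e : Edge k V) : sub b f c (form e) = form (con b f c e) := by
  unfold form con sub
  rw [map_add, map_sub, aeval_X, aeval_X, aeval_C, MvPolynomial.algebraMap_eq]
  by_cases h1 : e.1 = b <;> by_cases h2 : e.2.1 = b <;> simp [h1, h2] <;> ring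

theorem cuts_con {b f : V} {c : k} {e : Edge k V} {U : Set V} (hb : b ∉ U) (hf : f ∉ U) :
    cuts U (con b f c e) ↔ cuts U e := by
  unfold cuts con
  by_cases h1 : e.1 = b <;> by_cases h2 : e.2.1 = b <;> simp [h1, h2, hb, hf]

theorem sub_Y {b f : V} {c : k} {L : Multiset (Edge k V)} {U : Set V} (hb : b ∉ U)
    (hf : f ∉ U) : sub b f c (Y L U) = Y (L.map (con b f c)) U := by
  unfold Y
  rw [map_multiset_prod, Multiset.map_map, Multiset.filter_map, Multiset.map_map]
  have h1 : L.filter (cuts U ∘ con b f c) = L.filter (cuts U) :=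
    Multiset.filter_congr fun e _ => cuts_con hb hf
  rw [h1]
  congr 1
  exact Multiset.map_congr rfl fun e _ => sub_form b f c e

theorem rem_con {b f u : V} {c : k} {L : Multiset (Edge k V)} (hb : u ≠ b) (hf : u ≠ f) :
    rem u (L.map (con b f c)) = (rem u L).map (con b f c) := by
  unfold rem
  rw [Multiset.filter_map]
  congr 1
  refine Multiset.filter_congr fun e _ => ?_
  unfold con
  simp only [Function.comp]
  by_cases h1 : e.1 = b <;> by_cases h2 : e.2.1 = b <;>
    simp [h1, h2, hb.symm, hf.symm]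

theorem sub_sub_mem (b f : V) (c : k) (g : MvPolynomial V k) :
    g - sub b f c g ∈ Ideal.span {(X b - X f - C c : MvPolynomial V k)} := by
  rw [← Ideal.Quotient.eq]
  have h : (Ideal.Quotient.mk (Ideal.span {(X b - X f - C c : MvPolynomial V k)})) =
      (Ideal.Quotient.mk (Ideal.span {(X b - X f - C c : MvPolynomial V k)})).comp
        (sub b f c).toRingHom := by
    apply MvPolynomial.ringHom_ext
    · intro r
      simp [sub, MvPolynomial.algebraMap_eq]
    · intro a
      by_cases ha : a = b
      · subst ha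
        rw [RingHom.comp_apply, Ideal.Quotient.eq]
        have : (X a : MvPolynomial V k) - (sub a f c).toRingHom (X a) = X a - X f - C c := by
          simp [sub]; ring
        rw [this]
        exact Ideal.mem_span_singleton_self _
      · simp [sub, ha]
  exact congrArg (fun f => f g) h

theorem mem_map_sub {B : Finset V} {L : Multiset (Edge k V)} {b f : V} {c : k} (hf : f ∉ B)
    {g : MvPolynomial V k} (h : g ∈ cI (B.erase b) (L.map (con b f c))) :
    g ∈ cI B L ⊔ Ideal.span {(X b - X f - C c : MvPolynomial V k)} := by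
  unfold cI at h
  refine Submodule.closure_induction (p := fun g _ => g ∈ cI B L ⊔
    Ideal.span {(X b - X f - C c : MvPolynomial V k)}) ?_ ?_ ?_ h
  · exact Ideal.zero_mem _
  · intro x y _ _ hx hy
    exact Ideal.add_mem _ hx hy
  · rintro r x ⟨U, hU, hU', rfl⟩
    rw [smul_eq_mul]
    refine Ideal.mul_mem_left _ _ ?_
    have hb' : b ∉ U := fun h => Finset.notMem_erase b B (hU' h)
    have hf' : f ∉ U := fun h => hf (Finset.mem_of_mem_erase (hU' h))
    rw [← sub_Y (by simpa using hb') (by simpa using hf')]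
    have h1 : sub b f c (Y L (U : Set V)) = Y L (U : Set V) -
      (Y L (U : Set V) - sub b f c (Y L (U : Set V))) := by ring
    rw [h1]
    exact Ideal.sub_mem _ (Ideal.mem_sup_left (Y_mem hU (hU'.trans (Finset.erase_subset _ _))))
      (Ideal.mem_sup_right (sub_sub_mem b f c _))

theorem sub_LH {B : Finset V} {L : Multiset (Edge k V)} {b f u : V} {c : k} (hu : u ∈ B.erase b)
    (hf : f ∉ B) {e : Edge k V}
    (he : (e.1 = b ∧ e.2.1 = f) ∨ (e.1 = f ∧ e.2.1 = b)) (he0 : sub b f c (form e) = 0)
    {g : MvPolynomial V k} (h : g ∈ LH B (e ::ₘ L) u) :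
    sub b f c g ∈ LH (B.erase b) (L.map (con b f c)) u := by
  have hub : u ≠ b := (Finset.mem_erase.1 hu).1
  have huB : u ∈ B := (Finset.mem_erase.1 hu).2
  have huf : u ≠ f := fun h => hf (h ▸ huB)
  have heb : ∀ U : Set V, f ∉ U → (cuts U e ↔ b ∈ U) := by
    intro U hU
    unfold cuts
    rcases he with ⟨h1, h2⟩ | ⟨h1, h2⟩ <;> rw [h1, h2] <;> tauto
  have hrem : rem u (e ::ₘ L) = e ::ₘ rem u L := by
    unfold rem
    apply Multiset.filter_cons_of_pos
    rcases he with ⟨h1, h2⟩ | ⟨h1, h2⟩ <;> rw [h1, h2]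
    · exact ⟨hub.symm, huf.symm⟩
    · exact ⟨huf.symm, hub.symm⟩
  unfold LH at h ⊢
  obtain ⟨x, hx, y, hy, rfl⟩ := Submodule.mem_sup.1 h
  rw [map_add]
  refine Ideal.add_mem _ (Ideal.mem_sup_left ?_) (Ideal.mem_sup_right ?_)
  · obtain ⟨c', rfl⟩ := Ideal.mem_span_singleton'.1 hx
    rw [map_mul, Y_cons, if_neg, one_mul, sub_Y]
    · exact Ideal.mul_mem_left _ _ (Ideal.mem_span_singleton_self _)
    · simpa using hub.symm
    · simpa using huf.symm
    · rw [heb _ (by simpa using huf.symm)]
      simpa using hub.symm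
  · rw [hrem] at hy
    unfold cI at hy
    refine Submodule.closure_induction (p := fun y _ => sub b f c y ∈
      cI ((B.erase b).erase u) (rem u (L.map (con b f c)))) ?_ ?_ ?_ hy
    · rw [map_zero]; exact Ideal.zero_mem _
    · intro x y _ _ hx hy
      rw [map_add]; exact Ideal.add_mem _ hx hy
    · rintro r x ⟨U, hU, hU', rfl⟩
      rw [smul_eq_mul, map_mul]
      refine Ideal.mul_mem_left _ _ ?_
      have hfU : f ∉ (U : Set V) := fun h => hf (Finset.mem_of_mem_erase (hU' (by simpa using h)))
      rw [Y_cons]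
      by_cases hbU : b ∈ (U : Set V)
      · rw [if_pos ((heb _ hfU).2 hbU), map_mul, he0, zero_mul]
        exact Ideal.zero_mem _
      · rw [if_neg (fun h => hbU ((heb _ hfU).1 h)), one_mul, sub_Y hbU hfU, ← rem_con hub huf]
        refine Y_mem hU ?_
        intro a ha
        have := hU' ha
        rw [Finset.mem_erase] at this
        rw [Finset.mem_erase, Finset.mem_erase]
        exact ⟨this.1, fun h => hbU (by simpa [h] using ha), this.2⟩

theorem Y_of_no_cut {L : Multiset (Edge k V)} {U : Set V} (h : L.filter (cuts U) = 0) :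
    Y L U = 1 := by
  unfold Y; rw [h]; simp

theorem inter_aux [IsDomain k] (N : ℕ) : ∀ (B : Finset V), B.card = N → B.Nonempty →
    ∀ (n : ℕ) (L : Multiset (Edge k V)), (L.filter (cuts (B : Set V))).card = n →
    ∀ g : MvPolynomial V k, (∀ u ∈ B, g ∈ LH B L u) → g ∈ cI B L := by
  induction N using Nat.strong_induction_on with
  | _ N IHN =>
  intro B hBN hB n
  induction n with
  | zero =>
    intro L hL g _
    have h1 : Y L (B : Set V) = 1 := Y_of_no_cut (Multiset.card_eq_zero.1 hL)
    have h2 : (1 : MvPolynomial V k) ∈ cI B L := h1 ▸ Y_mem hB (Finset.Subset.refl _)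
    rw [(Ideal.eq_top_iff_one _).2 h2]
    trivial
  | succ n IHn =>
    intro L hL g hg
    have h0 : (L.filter (cuts (B : Set V))) ≠ 0 := by
      intro h; rw [h] at hL; simp at hL
    obtain ⟨e, he⟩ := Multiset.exists_mem_of_ne_zero h0
    rw [Multiset.mem_filter] at he
    obtain ⟨heL, hec⟩ := he
    obtain ⟨L', rfl⟩ := Multiset.exists_cons_of_mem heL
    have hL' : (L'.filter (cuts (B : Set V))).card = n := by
      rw [Multiset.filter_cons_of_pos _ hec, Multiset.card_cons] at hL
      exact Nat.succ_injective hL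
    -- the ends
    obtain ⟨b, f, c, hb, hf, hbf, he0, hspan⟩ : ∃ (b f : V) (c : k), b ∈ B ∧ f ∉ B ∧
        ((e.1 = b ∧ e.2.1 = f) ∨ (e.1 = f ∧ e.2.1 = b)) ∧ sub b f c (form e) = 0 ∧
        (X b - X f - C c : MvPolynomial V k) ∈ Ideal.span {form e} := by
      unfold cuts at hec
      rw [Finset.mem_coe, Finset.mem_coe] at hec
      by_cases h1 : e.1 ∈ B
      · have h2 : e.2.1 ∉ B := fun h2 => hec ⟨fun _ => h2, fun _ => h1⟩
        have h3 : e.2.1 ≠ e.1 := fun h => h2 (h ▸ h1)
        refine ⟨e.1, e.2.1, - e.2.2, h1, h2, Or.inl ⟨rfl, rfl⟩, ?_, ?_⟩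
        · simp [sub, form, h3, MvPolynomial.algebraMap_eq]
        · have : (X e.1 - X e.2.1 - C (-e.2.2) : MvPolynomial V k) = form e := by
            simp [form]
          rw [this]; exact Ideal.mem_span_singleton_self _
      · have h2 : e.2.1 ∈ B := by
          by_contra h2
          exact hec ⟨fun h => absurd h h1, fun h => absurd h h2⟩
        have h3 : e.1 ≠ e.2.1 := fun h => h1 (h ▸ h2)
        refine ⟨e.2.1, e.1, e.2.2, h2, h1, Or.inr ⟨rfl, rfl⟩, ?_, ?_⟩
        · simp [sub, form, h3, MvPolynomial.algebraMap_eq]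
        · have : (X e.2.1 - X e.1 - C e.2.2 : MvPolynomial V k) = - form e := by
            simp [form]; ring
          rw [this]; exact (Ideal.neg_mem_iff _).2 (Ideal.mem_span_singleton_self _)
    by_cases hB1 : (B.erase b).Nonempty
    · -- contraction
      have h1 : sub b f c g ∈ cI (B.erase b) (L'.map (con b f c)) := by
        refine IHN (B.erase b).card ?_ (B.erase b) rfl hB1 _ _ rfl _ ?_
        · rw [← hBN]; exact Finset.card_erase_lt_of_mem hb
        · intro u hu
          exact sub_LH hu hf hbf he0 (hg u (Finset.mem_of_mem_erase hu))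
      have h2 : g ∈ cI B (e ::ₘ L') ⊔ Ideal.span {form e} := by
        have h3 : cI B (e ::ₘ L') ⊔ Ideal.span {(X b - X f - C c : MvPolynomial V k)} ≤
            cI B (e ::ₘ L') ⊔ Ideal.span {form e} :=
          sup_le_sup_left ((Ideal.span_singleton_le_iff_mem _).2 hspan) _
        refine h3 ?_
        have h4 : g = sub b f c g + (g - sub b f c g) := by ring
        rw [h4]
        refine Ideal.add_mem _ ?_ (Ideal.mem_sup_right (sub_sub_mem b f c g))
        -- the cut products of `L'` and `e ::ₘ L'` for `U ∌ b` agree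
        have h5 : sub b f c g ∈ cI (B.erase b) ((e ::ₘ L').map (con b f c)) := by
          refine cI_congr ?_ h1
          intro U hU
          rw [Multiset.map_cons, Y_cons, if_neg, one_mul]
          have hb' : b ∉ (U : Set V) := fun h =>
            Finset.notMem_erase b B (hU (by simpa using h))
          have hf' : f ∉ (U : Set V) := fun h =>
            hf (Finset.mem_of_mem_erase (hU (by simpa using h)))
          rw [cuts_con hb' hf']
          unfold cuts
          rcases hbf with ⟨h1, h2⟩ | ⟨h1, h2⟩ <;> rw [h1, h2] <;> tauto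
        exact mem_map_sub hf h5
      obtain ⟨i, hi, z, hz, hiz⟩ := Submodule.mem_sup.1 h2
      obtain ⟨h, rfl⟩ := Ideal.mem_span_singleton.1 hz
      -- deletion
      have h3 : ∀ u ∈ B, form e * h ∈ LH B (e ::ₘ L') u := by
        intro u hu
        have : form e * h = g - i := by rw [← hiz]; ring
        rw [this]
        exact Ideal.sub_mem _ (hg u hu) (cI_le_LH hi)
      have h4 : h ∈ cI B L' := IHn L' hL' h fun u hu =>
        removal_LH hu hec (form_ne_zero hec) (h3 u hu)
      rw [← hiz]
      exact Ideal.add_mem _ hi (form_mul_cI h4)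
    · -- `B = {b}`
      have hB2 : B = {b} := by
        rw [Finset.not_nonempty_iff_eq_empty, Finset.erase_eq_empty_iff] at hB1
        exact hB1.resolve_left hB.ne_empty
      have h1 := hg b hb
      unfold LH at h1
      have h2 : cI (B.erase b) (rem b (e ::ₘ L')) = ⊥ := by
        unfold cI
        rw [Ideal.span_eq_bot]
        rintro z ⟨U, hU, hU', -⟩
        rw [hB2] at hU'
        simp at hU'
        exact absurd hU' hU.ne_empty
      rw [h2, sup_bot_eq] at h1
      refine (Ideal.span_singleton_le_iff_mem _).2 ?_ h1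
      have := Y_mem (L := e ::ₘ L') (B := B) (U := {b}) (Finset.singleton_nonempty b)
        (Finset.singleton_subset_iff.2 hb)
      simpa using this

/-- **Intersection lemma** -/
theorem inter [IsDomain k] {B : Finset V} (hB : B.Nonempty) (L : Multiset (Edge k V))
    {g : MvPolynomial V k}
    (hg : ∀ u ∈ B, g ∈ Ideal.span {Y L ({u} : Set V)} ⊔ cI (B.erase u) (rem u L)) :
    g ∈ cI B L :=
  inter_aux B.card B rfl hB _ L rfl g hg

end

end Vale.Agent.P291.H276.Inter
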