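import Vale.Agent.P291.HCore
import Vale.Agent.P291.H216.Kap

/-!
# P291, N2d: conjugation, recolouring and factorisation of `kap`, `kapN`, `kapF`
-/

set_option linter.unusedSectionVars false

open MvPolynomial

namespace Vale.Agent.P291

namespace N2d

variable {I E B Λ : Type*} [Fintype E] [DecidableEq I] [Fintype B] [DecidableEq B] [CommRing Λ]
  [IsDomain Λ]
variable (Q : QD I E B Λ)

/-- general product of weights -/
noncomputable def PW (c : E × B × Option B → Prop) [DecidablePred c] : SS B Λ :=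
  ∏ p ∈ Q.Wt.filter c, Q.xi p

/-- general product of roots -/
noncomputable def PR (c : B × B → Prop) [DecidablePred c] : SS B Λ :=
  ∏ p ∈ Q.Prs.filter c, (X p.1 - X p.2 : SS B Λ)

theorem PW_congr {c d : E × B × Option B → Prop} [DecidablePred c] [DecidablePred d]
    (h : ∀ p ∈ Q.Wt, c p ↔ d p) : PW Q c = PW Q d := by
  unfold PW
  rw [Finset.filter_congr h]

theorem PR_congr {c d : B × B → Prop} [DecidablePred c] [DecidablePred d]
    (h : ∀ p ∈ Q.Prs, c p ↔ d p) : PR Q c = PR Q d := by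
  unfold PR
  rw [Finset.filter_congr h]

theorem rename_PW {σ : Equiv.Perm B} (hσ : σ ∈ Q.W) {c d : E × B × Option B → Prop}
    [DecidablePred c] [DecidablePred d] (h : ∀ p, c p ↔ d (wtEquiv σ p)) :
    rename σ (PW Q c) = PW Q d := by
  unfold PW
  rw [map_prod]
  refine Finset.prod_equiv (wtEquiv σ) (fun p => ?_) (fun p _ => rename_xi Q σ p)
  simp only [Finset.mem_filter, wtEquiv_mem Q hσ p, h p]

theorem rename_PR {σ : Equiv.Perm B} (hσ : σ ∈ Q.W) {c d : B × B → Prop}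
    [DecidablePred c] [DecidablePred d] (h : ∀ p, c p ↔ d (σ p.1, σ p.2)) :
    rename σ (PR Q c) = PR Q d := by
  unfold PR
  rw [map_prod]
  refine Finset.prod_equiv (Equiv.prodCongr σ σ) (fun p => ?_) (fun p _ => ?_)
  · simp only [Finset.mem_filter, QD.Prs, Finset.mem_univ, true_and, Equiv.prodCongr_apply,
      Prod.map_fst, Prod.map_snd, (mem_W Q).1 hσ, h p]
    rfl
  · simp

theorem PR_ne_zero {c : B × B → Prop} [DecidablePred c] (h : ∀ p, c p → p.1 ≠ p.2) :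
    PR Q c ≠ 0 := by
  unfold PR
  rw [Finset.prod_ne_zero_iff]
  intro p hp
  exact X_sub_X_ne_zero (h p (Finset.mem_filter.1 hp).2)

/-- membership of an extended box in `U` -/
def inU (U : Finset B) (o : Option B) : Prop := ∃ b ∈ U, o = some b

instance (U : Finset B) : DecidablePred (inU U) := fun o => by
  unfold inU; infer_instance

theorem inU_some (U : Finset B) (b : B) : inU U (some b) ↔ b ∈ U := by
  constructor
  · rintro ⟨c, hc, h⟩; cases h; exact hc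
  · intro h; exact ⟨b, h, rfl⟩

theorem inU_none (U : Finset B) : ¬ inU U none := by
  rintro ⟨c, hc, h⟩; cases h

theorem kap_eq (g : B → ℕ) : Q.kap g = toK (PW Q fun p => g p.2.1 ≠ p.2.2.elim 0 g) /
    toK (PR Q fun p => g p.1 ≠ g p.2) := rfl

theorem kapN_eq (U : Finset B) (g : B → ℕ) : Q.kapN U g =
    toK (PW Q fun p => p.2.1 ∈ U ∧ inU U p.2.2 ∧ g p.2.1 ≠ p.2.2.elim 0 g) /
    toK (PR Q fun p => p.1 ∈ U ∧ p.2 ∈ U ∧ g p.1 ≠ g p.2) := rfl

theorem kapF_eq (U : Finset B) (g : B → ℕ) : Q.kapF U g =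
    toK (PW Q fun p => p.2.1 ∉ U ∧ ¬ inU U p.2.2 ∧ g p.2.1 ≠ p.2.2.elim 0 g) /
    toK (PR Q fun p => p.1 ∉ U ∧ p.2 ∉ U ∧ g p.1 ≠ g p.2) := by
  unfold QD.kapF
  congr 2
  refine Finset.prod_congr (Finset.filter_congr fun p _ => ?_) fun _ _ => rfl
  simp only [inU, not_exists, not_and]

/-- crossing part -/
noncomputable def kapC (U : Finset B) (g : B → ℕ) : KK B Λ :=
  toK (PW Q fun p => ¬ (p.2.1 ∈ U ↔ inU U p.2.2) ∧ g p.2.1 ≠ p.2.2.elim 0 g) /
    toK (PR Q fun p => ¬ (p.1 ∈ U ↔ p.2 ∈ U) ∧ g p.1 ≠ g p.2)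

theorem PW_split (U : Finset B) (c : E × B × Option B → Prop) [DecidablePred c] :
    PW Q c = PW Q (fun p => p.2.1 ∈ U ∧ inU U p.2.2 ∧ c p) *
      PW Q (fun p => p.2.1 ∉ U ∧ ¬ inU U p.2.2 ∧ c p) *
      PW Q (fun p => ¬ (p.2.1 ∈ U ↔ inU U p.2.2) ∧ c p) := by
  unfold PW
  simp only [Finset.prod_filter]
  rw [← Finset.prod_mul_distrib, ← Finset.prod_mul_distrib]
  refine Finset.prod_congr rfl fun p _ => ?_
  by_cases h1 : p.2.1 ∈ U <;> by_cases h2 : inU U p.2.2 <;> by_cases h3 : c p <;>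
    simp [h1, h2, h3]

theorem PR_split (U : Finset B) (c : B × B → Prop) [DecidablePred c] :
    PR Q c = PR Q (fun p => p.1 ∈ U ∧ p.2 ∈ U ∧ c p) *
      PR Q (fun p => p.1 ∉ U ∧ p.2 ∉ U ∧ c p) *
      PR Q (fun p => ¬ (p.1 ∈ U ↔ p.2 ∈ U) ∧ c p) := by
  unfold PR
  simp only [Finset.prod_filter]
  rw [← Finset.prod_mul_distrib, ← Finset.prod_mul_distrib]
  refine Finset.prod_congr rfl fun p _ => ?_
  by_cases h1 : p.1 ∈ U <;> by_cases h2 : p.2 ∈ U <;> by_cases h3 : c p <;>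
    simp [h1, h2, h3]

theorem kap_split_gen (U : Finset B) (g : B → ℕ) :
    Q.kap g = Q.kapN U g * Q.kapF U g * kapC Q U g := by
  rw [kap_eq, kapN_eq, kapF_eq, kapC, PW_split Q U, PR_split Q U, H216.toK_mul, H216.toK_mul,
    H216.toK_mul, H216.toK_mul, div_mul_div_comm, div_mul_div_comm]

theorem kapN_congr (U : Finset B) {g h : B → ℕ}
    (H : ∀ r ∈ U, ∀ s ∈ U, g r = g s ↔ h r = h s) : Q.kapN U g = Q.kapN U h := by
  rw [kapN_eq, kapN_eq]
  congr 2
  · refine PW_congr Q fun p _ => ?_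
    refine and_congr_right fun h1 => and_congr_right fun h2 => ?_
    obtain ⟨b, hb, hb'⟩ := h2
    rw [hb']
    exact not_congr (H _ h1 _ hb)
  · refine PR_congr Q fun p _ => ?_
    exact and_congr_right fun h1 => and_congr_right fun h2 => not_congr (H _ h1 _ h2)

theorem kapF_congr (U : Finset B) {g h : B → ℕ}
    (H : ∀ r ∉ U, ∀ s ∉ U, g r = g s ↔ h r = h s) (H0 : ∀ r ∉ U, g r = 0 ↔ h r = 0) :
    Q.kapF U g = Q.kapF U h := by
  rw [kapF_eq, kapF_eq]
  congr 2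
  · refine PW_congr Q fun p _ => ?_
    refine and_congr_right fun h1 => and_congr_right fun h2 => ?_
    rcases hp : p.2.2 with _ | s
    · exact not_congr (H0 _ h1)
    · rw [hp, inU_some] at h2
      exact not_congr (H _ h1 _ h2)
  · refine PR_congr Q fun p _ => ?_
    exact and_congr_right fun h1 => and_congr_right fun h2 => not_congr (H _ h1 _ h2)

theorem kapC_congr (U : Finset B) {g h : B → ℕ}
    (H : ∀ r ∈ U, ∀ s ∉ U, g r = g s ↔ h r = h s) (H0 : ∀ r ∈ U, g r = 0 ↔ h r = 0) :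
    kapC Q U g = kapC Q U h := by
  unfold kapC
  congr 2
  · refine PW_congr Q fun p _ => ?_
    refine and_congr_right fun h1 => ?_
    rcases hp : p.2.2 with _ | s
    · rw [hp] at h1
      have h2 : p.2.1 ∈ U := by
        by_contra h3
        exact h1 ⟨fun h => absurd h h3, fun h => absurd h (inU_none U)⟩
      exact not_congr (H0 _ h2)
    · rw [hp, inU_some] at h1
      by_cases h2 : p.2.1 ∈ U
      · have h3 : s ∉ U := fun h => h1 ⟨fun _ => h, fun _ => h2⟩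
        exact not_congr (H _ h2 _ h3)
      · have h3 : s ∈ U := by
          by_contra h; exact h1 ⟨fun h' => absurd h' h2, fun h' => absurd h' h⟩
        show ¬ (g p.2.1 = g s) ↔ ¬ (h p.2.1 = h s)
        rw [eq_comm, @eq_comm _ (h p.2.1)]
        exact not_congr (H _ h3 _ h2)
  · refine PR_congr Q fun p _ => ?_
    refine and_congr_right fun h1 => ?_
    by_cases h2 : p.1 ∈ U
    · have h3 : p.2 ∉ U := fun h => h1 ⟨fun _ => h, fun _ => h2⟩
      exact not_congr (H _ h2 _ h3)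
    · have h3 : p.2 ∈ U := by
        by_contra h; exact h1 ⟨fun h' => absurd h' h2, fun h' => absurd h' h⟩
      show ¬ (g p.1 = g p.2) ↔ ¬ (h p.1 = h p.2)
      rw [eq_comm, @eq_comm _ (h p.1)]
      exact not_congr (H _ h3 _ h2)

theorem kapN_const (U : Finset B) {g : B → ℕ} (H : ∀ r ∈ U, ∀ s ∈ U, g r = g s) :
    Q.kapN U g = 1 := by
  rw [kapN_congr Q U (h := fun _ => 0) (fun r hr s hs => by simp [H r hr s hs])]
  rw [kapN_eq]
  have h1 : PW Q (fun p => p.2.1 ∈ U ∧ inU U p.2.2 ∧ (0 : ℕ) ≠ p.2.2.elim 0 fun _ => 0) = 1 := by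
    unfold PW
    rw [Finset.filter_eq_empty_iff.2, Finset.prod_empty]
    rintro p _ ⟨_, _, h⟩
    apply h
    cases p.2.2 <;> rfl
  have h2 : PR Q (fun p => p.1 ∈ U ∧ p.2 ∈ U ∧ (0 : ℕ) ≠ 0) = 1 := by
    unfold PR
    rw [Finset.filter_eq_empty_iff.2, Finset.prod_empty]
    rintro p _ ⟨_, _, h⟩
    exact h rfl
  rw [h1, h2]
  simp

theorem kapF_zero (U : Finset B) {g : B → ℕ} (H : ∀ r ∉ U, g r = 0) :
    Q.kapF U g = 1 := by
  rw [kapF_congr Q U (h := fun _ => 0) (fun r hr s hs => by simp [H r hr, H s hs])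
    (fun r hr => by simp [H r hr])]
  rw [kapF_eq]
  have h1 : PW Q (fun p => p.2.1 ∉ U ∧ ¬ inU U p.2.2 ∧ (0 : ℕ) ≠ p.2.2.elim 0 fun _ => 0) = 1 := by
    unfold PW
    rw [Finset.filter_eq_empty_iff.2, Finset.prod_empty]
    rintro p _ ⟨_, _, h⟩
    apply h
    cases p.2.2 <;> rfl
  have h2 : PR Q (fun p => p.1 ∉ U ∧ p.2 ∉ U ∧ (0 : ℕ) ≠ 0) = 1 := by
    unfold PR
    rw [Finset.filter_eq_empty_iff.2, Finset.prod_empty]
    rintro p _ ⟨_, _, h⟩
    exact h rfl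
  rw [h1, h2]
  simp

theorem kap_ind (U : Finset B) : Q.kap (QD.ind U) = kapC Q U (QD.ind U) := by
  rw [kap_split_gen Q U, kapN_const, kapF_zero, one_mul, one_mul]
  · intro r hr; simp [QD.ind, hr]
  · intro r hr s hs; simp [QD.ind, hr, hs]

theorem kap_split (U : Finset B) (g : B → ℕ) (hg : ∀ b ∈ U, ∀ c ∉ U, g b ≠ g c)
    (h0 : ∀ b ∈ U, g b ≠ 0) : Q.kap g = Q.kap (QD.ind U) * Q.kapN U g * Q.kapF U g := by
  rw [kap_ind, kap_split_gen Q U g, kapC_congr Q U (h := QD.ind U)]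
  · ring
  · intro r hr s hs
    simp [QD.ind, hr, hs, hg r hr s hs]
  · intro r hr
    simp [QD.ind, hr, h0 r hr]

theorem elim_map (σ : Equiv.Perm B) (g : B → ℕ) (o : Option B) :
    (o.map σ).elim 0 (fun b => g (σ⁻¹ b)) = o.elim 0 g := by
  cases o <;> simp

theorem mem_map_perm (σ : Equiv.Perm B) (U : Finset B) (b : B) :
    σ b ∈ U.map σ.toEmbedding ↔ b ∈ U := by
  simp

theorem inU_map (σ : Equiv.Perm B) (U : Finset B) (o : Option B) :
    inU (U.map σ.toEmbedding) (o.map σ) ↔ inU U o := by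
  cases o with
  | none => simp [inU_none]
  | some b => simp [inU_some]

theorem act_kap {σ : Equiv.Perm B} (hσ : σ ∈ Q.W) (g : B → ℕ) :
    act σ (Q.kap g) = Q.kap (fun b => g (σ⁻¹ b)) := by
  rw [kap_eq, kap_eq, map_div₀, act_toK, act_toK]
  congr 2
  · refine rename_PW Q hσ fun p => ?_
    show _ ↔ (fun b => g (σ⁻¹ b)) (σ p.2.1) ≠ (p.2.2.map σ).elim 0 (fun b => g (σ⁻¹ b))
    rw [elim_map]; simp
  · refine rename_PR Q hσ fun p => ?_
    simp

theorem act_kapN {σ : Equiv.Perm B} (hσ : σ ∈ Q.W) (U : Finset B) (g : B → ℕ) :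
    act σ (Q.kapN U g) = Q.kapN (U.map σ.toEmbedding) (fun b => g (σ⁻¹ b)) := by
  rw [kapN_eq, kapN_eq, map_div₀, act_toK, act_toK]
  congr 2
  · refine rename_PW Q hσ fun p => ?_
    show _ ↔ σ p.2.1 ∈ U.map σ.toEmbedding ∧ inU (U.map σ.toEmbedding) (p.2.2.map σ) ∧
      (fun b => g (σ⁻¹ b)) (σ p.2.1) ≠ (p.2.2.map σ).elim 0 (fun b => g (σ⁻¹ b))
    rw [elim_map, mem_map_perm, inU_map]; simp
  · refine rename_PR Q hσ fun p => ?_
    simp

theorem act_kapF {σ : Equiv.Perm B} (hσ : σ ∈ Q.W) (U : Finset B) (g : B → ℕ) :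
    act σ (Q.kapF U g) = Q.kapF (U.map σ.toEmbedding) (fun b => g (σ⁻¹ b)) := by
  rw [kapF_eq, kapF_eq, map_div₀, act_toK, act_toK]
  congr 2
  · refine rename_PW Q hσ fun p => ?_
    show _ ↔ σ p.2.1 ∉ U.map σ.toEmbedding ∧ ¬ inU (U.map σ.toEmbedding) (p.2.2.map σ) ∧
      (fun b => g (σ⁻¹ b)) (σ p.2.1) ≠ (p.2.2.map σ).elim 0 (fun b => g (σ⁻¹ b))
    rw [elim_map, mem_map_perm, inU_map]; simp
  · refine rename_PR Q hσ fun p => ?_
    simp

end N2d

end Vale.Agent.P291
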