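import Vale.Agent.P291.H276.Kap2

/-!
# P291, N2d: the stabiliser of a subset and its symmetrisation
-/

set_option linter.unusedSectionVars false

open MvPolynomial

namespace Vale.Agent.P291

namespace N2d

variable {I E B Λ : Type*} [Fintype E] [DecidableEq I] [Fintype B] [DecidableEq B] [CommRing Λ]
  [IsDomain Λ]
variable (Q : QD I E B Λ)

/-- stabiliser of `U` in the Weyl group -/
def WS (U : Finset B) : Finset (Equiv.Perm B) := Q.Wf.filter fun σ => ∀ b, σ b ∈ U ↔ b ∈ U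

theorem mem_WS {U : Finset B} {σ : Equiv.Perm B} :
    σ ∈ WS Q U ↔ σ ∈ Q.W ∧ ∀ b, σ b ∈ U ↔ b ∈ U := by
  rw [WS, Finset.mem_filter, mem_Wf]

theorem mem_WU {U : Finset B} {σ : Equiv.Perm B} :
    σ ∈ Q.WU U ↔ σ ∈ Q.W ∧ ∀ b ∉ U, σ b = b := by
  rw [QD.WU, Finset.mem_filter, mem_Wf]

theorem WU_pres {U : Finset B} {σ : Equiv.Perm B} (h : σ ∈ Q.WU U) (b : B) :
    σ b ∈ U ↔ b ∈ U := by
  have h1 := (mem_WU Q).1 h
  by_cases hb : b ∈ U
  · refine ⟨fun _ => hb, fun _ => ?_⟩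
    by_contra h2
    have h3 := h1.2 _ h2
    have h4 := σ.injective h3
    rw [h4] at h2
    exact h2 hb
  · rw [h1.2 b hb]

theorem WUc_pres {U : Finset B} {σ : Equiv.Perm B} (h : σ ∈ Q.WU Uᶜ) (b : B) :
    σ b ∈ U ↔ b ∈ U := by
  have := WU_pres Q h b
  simp only [Finset.mem_compl] at this
  exact not_iff_not.1 this

theorem map_eq_of_pres {U : Finset B} {σ : Equiv.Perm B} (h : ∀ b, σ b ∈ U ↔ b ∈ U) :
    U.map σ.toEmbedding = U := by
  ext b
  constructor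
  · intro hb
    obtain ⟨c, hc, rfl⟩ := Finset.mem_map.1 hb
    exact (h c).2 hc
  · intro hb
    refine Finset.mem_map.2 ⟨σ⁻¹ b, ?_, by simp⟩
    rw [← h]; simpa using hb

theorem pres_inv {U : Finset B} {σ : Equiv.Perm B} (h : ∀ b, σ b ∈ U ↔ b ∈ U) (b : B) :
    σ⁻¹ b ∈ U ↔ b ∈ U := by
  rw [← h (σ⁻¹ b)]; simp

/-- restriction of a permutation preserving `U` to `U`, extended by the identity -/
def rho' (U : Finset B) (σ : Equiv.Perm B) : Equiv.Perm B :=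
  if h : ∀ b, σ b ∈ U ↔ b ∈ U then Equiv.Perm.ofSubtype (σ.subtypePerm (p := (· ∈ U)) h) else 1

theorem rho'_mem {U : Finset B} {σ : Equiv.Perm B} (h : ∀ b, σ b ∈ U ↔ b ∈ U) {b : B}
    (hb : b ∈ U) : rho' U σ b = σ b := by
  rw [rho', dif_pos h, Equiv.Perm.ofSubtype_apply_of_mem _ hb]
  rfl

theorem rho'_notMem {U : Finset B} {σ : Equiv.Perm B} {b : B}
    (hb : b ∉ U) : rho' U σ b = b := by
  unfold rho'
  split_ifs with h
  · rw [Equiv.Perm.ofSubtype_apply_of_not_mem _ hb]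
  · rfl

theorem pres_compl {U : Finset B} {σ : Equiv.Perm B} (h : ∀ b, σ b ∈ U ↔ b ∈ U) (b : B) :
    σ b ∈ Uᶜ ↔ b ∈ Uᶜ := by
  rw [Finset.mem_compl, Finset.mem_compl, h]

theorem rho'_WU {U : Finset B} {σ : Equiv.Perm B} (hσ : σ ∈ Q.W)
    (h : ∀ b, σ b ∈ U ↔ b ∈ U) : rho' U σ ∈ Q.WU U := by
  rw [mem_WU]
  refine ⟨fun b => ?_, fun b hb => rho'_notMem hb⟩
  by_cases hb : b ∈ U
  · rw [rho'_mem h hb, (mem_W Q).1 hσ]
  · rw [rho'_notMem hb]

theorem rho'_mul {U : Finset B} {σ : Equiv.Perm B}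
    (h : ∀ b, σ b ∈ U ↔ b ∈ U) : rho' U σ * rho' Uᶜ σ = σ := by
  ext b
  rw [Equiv.Perm.mul_apply]
  by_cases hb : b ∈ U
  · rw [rho'_notMem (U := Uᶜ) (by simpa using hb), rho'_mem h hb]
  · have hb' : b ∈ Uᶜ := by simpa using hb
    rw [rho'_mem (pres_compl h) hb', rho'_notMem]
    rw [h]; exact hb

theorem mul_mem_WS {U : Finset B} {σ τ : Equiv.Perm B} (h1 : σ ∈ Q.WU U) (h2 : τ ∈ Q.WU Uᶜ) :
    σ * τ ∈ WS Q U := by
  rw [mem_WS]
  refine ⟨Q.W.mul_mem ((mem_WU Q).1 h1).1 ((mem_WU Q).1 h2).1, fun b => ?_⟩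
  rw [Equiv.Perm.mul_apply, WU_pres Q h1, WUc_pres Q h2]

theorem rho'_mul_left {U : Finset B} {σ τ : Equiv.Perm B} (h1 : σ ∈ Q.WU U)
    (h2 : τ ∈ Q.WU Uᶜ) : rho' U (σ * τ) = σ := by
  have h := ((mem_WS Q).1 (mul_mem_WS Q h1 h2)).2
  ext b
  by_cases hb : b ∈ U
  · rw [rho'_mem h hb, Equiv.Perm.mul_apply, ((mem_WU Q).1 h2).2 b (by simpa using hb)]
  · rw [rho'_notMem hb, ((mem_WU Q).1 h1).2 b hb]

theorem rho'_mul_right {U : Finset B} {σ τ : Equiv.Perm B} (h1 : σ ∈ Q.WU U)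
    (h2 : τ ∈ Q.WU Uᶜ) : rho' Uᶜ (σ * τ) = τ := by
  have h := ((mem_WS Q).1 (mul_mem_WS Q h1 h2)).2
  ext b
  by_cases hb : b ∈ U
  · have hb' : b ∉ Uᶜ := by simpa using hb
    rw [rho'_notMem hb', ((mem_WU Q).1 h2).2 b hb']
  · have hb' : b ∈ Uᶜ := by simpa using hb
    rw [rho'_mem (pres_compl h) hb', Equiv.Perm.mul_apply, ((mem_WU Q).1 h1).2]
    rw [WUc_pres Q h2]; exact hb

theorem sum_WS {M : Type*} [AddCommMonoid M] (U : Finset B)
    (F : Equiv.Perm B → Equiv.Perm B → M) :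
    ∑ σ ∈ WS Q U, F (rho' U σ) (rho' Uᶜ σ) = ∑ σ ∈ Q.WU U, ∑ τ ∈ Q.WU Uᶜ, F σ τ := by
  rw [← Finset.sum_product']
  refine Finset.sum_nbij' (fun σ => (rho' U σ, rho' Uᶜ σ)) (fun p => p.1 * p.2) ?_ ?_ ?_ ?_ ?_
  · intro σ hσ
    have h := (mem_WS Q).1 hσ
    exact Finset.mem_product.2 ⟨rho'_WU Q h.1 h.2, rho'_WU Q h.1 (pres_compl h.2)⟩
  · intro p hp
    have h := Finset.mem_product.1 hp
    exact mul_mem_WS Q h.1 h.2
  · intro σ hσ
    exact rho'_mul ((mem_WS Q).1 hσ).2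
  · intro p hp
    have h := Finset.mem_product.1 hp
    ext1
    · exact rho'_mul_left Q h.1 h.2
    · exact rho'_mul_right Q h.1 h.2
  · intro σ _
    rfl

/-! ### functions supported on `U` -/

/-- rational functions in the variables of `U` -/
def SupK (U : Finset B) (x : KK B Λ) : Prop := ∃ p q : SS B Λ,
  p ∈ supported Λ (U : Set B) ∧ q ∈ supported Λ (U : Set B) ∧ x = toK p / toK q

theorem rename_congr' {U : Finset B} {σ τ : Equiv.Perm B} (h : ∀ b ∈ U, σ b = τ b)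
    {p : SS B Λ} (hp : p ∈ supported Λ (U : Set B)) : rename σ p = rename τ p := by
  rw [mem_supported] at hp
  refine hom_congr_vars (f₁ := (rename σ : SS B Λ →ₐ[Λ] SS B Λ).toRingHom)
    (f₂ := (rename τ : SS B Λ →ₐ[Λ] SS B Λ).toRingHom) ?_ ?_ rfl
  · ext1 c; simp
  · intro b hb _
    have : b ∈ U := by simpa using hp hb
    simp [h b this]

theorem act_congr' {U : Finset B} {σ τ : Equiv.Perm B} (h : ∀ b ∈ U, σ b = τ b)
    {x : KK B Λ} (hx : SupK U x) : act σ x = act τ x := by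
  obtain ⟨p, q, hp, hq, rfl⟩ := hx
  rw [map_div₀, map_div₀, act_toK, act_toK, act_toK, act_toK, rename_congr' h hp,
    rename_congr' h hq]

theorem SupK.mul {U : Finset B} {x y : KK B Λ} (hx : SupK U x) (hy : SupK U y) :
    SupK U (x * y) := by
  obtain ⟨p, q, hp, hq, rfl⟩ := hx
  obtain ⟨p', q', hp', hq', rfl⟩ := hy
  refine ⟨p * p', q * q', Subalgebra.mul_mem _ hp hp', Subalgebra.mul_mem _ hq hq', ?_⟩
  rw [H216.toK_mul, H216.toK_mul, div_mul_div_comm]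

theorem SupK_toK {U : Finset B} {p : SS B Λ} (hp : p ∈ supported Λ (U : Set B)) :
    SupK U (toK p) := ⟨p, 1, hp, Subalgebra.one_mem _, by
      rw [show toK (1 : SS B Λ) = 1 from map_one _, div_one]⟩

theorem C_mem_supp (U : Finset B) (c : Λ) : (C c : SS B Λ) ∈ supported Λ (U : Set B) :=
  (supported Λ (U : Set B)).algebraMap_mem c

theorem X_mem_supp {U : Finset B} {b : B} (h : b ∈ U) :
    (X b : SS B Λ) ∈ supported Λ (U : Set B) := by
  rw [mem_supported]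
  intro c hc
  by_cases hn : Nontrivial Λ
  · rw [vars_X] at hc
    simp only [Finset.coe_singleton, Set.mem_singleton_iff] at hc
    rw [hc]; exact_mod_cast h
  · exact absurd (inferInstance : Nontrivial Λ) hn

theorem PW_supp {U : Finset B} {c : E × B × Option B → Prop} [DecidablePred c]
    (h : ∀ p, c p → p.2.1 ∈ U ∧ ∀ b, p.2.2 = some b → b ∈ U) :
    PW Q c ∈ supported Λ (U : Set B) := by
  unfold PW
  refine Subalgebra.prod_mem _ fun p hp => ?_
  obtain ⟨h1, h2⟩ := h p (Finset.mem_filter.1 hp).2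
  unfold QD.xi
  refine Subalgebra.add_mem _ (Subalgebra.sub_mem _ ?_ (X_mem_supp h1)) (C_mem_supp U _)
  rcases hp2 : p.2.2 with _ | b
  · exact Subalgebra.zero_mem _
  · exact X_mem_supp (h2 b hp2)

theorem PR_supp {U : Finset B} {c : B × B → Prop} [DecidablePred c]
    (h : ∀ p, c p → p.1 ∈ U ∧ p.2 ∈ U) :
    PR Q c ∈ supported Λ (U : Set B) := by
  unfold PR
  refine Subalgebra.prod_mem _ fun p hp => ?_
  obtain ⟨h1, h2⟩ := h p (Finset.mem_filter.1 hp).2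
  exact Subalgebra.sub_mem _ (X_mem_supp h1) (X_mem_supp h2)

theorem SupK_kapN (U : Finset B) (g : B → ℕ) : SupK U (Q.kapN U g) := by
  refine ⟨_, _, PW_supp Q ?_, PR_supp Q ?_, kapN_eq Q U g⟩
  · rintro p ⟨h1, h2, _⟩
    refine ⟨h1, fun b hb => ?_⟩
    rw [hb, inU_some] at h2; exact h2
  · rintro p ⟨h1, h2, _⟩
    exact ⟨h1, h2⟩

theorem SupK_kapF (U : Finset B) (g : B → ℕ) : SupK Uᶜ (Q.kapF U g) := by
  refine ⟨_, _, PW_supp Q ?_, PR_supp Q ?_, kapF_eq Q U g⟩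
  · rintro p ⟨h1, h2, _⟩
    refine ⟨by simpa using h1, fun b hb => ?_⟩
    rw [hb, inU_some] at h2; simpa using h2
  · rintro p ⟨h1, h2, _⟩
    exact ⟨by simpa using h1, by simpa using h2⟩

theorem monomial_mem_supp {U : Finset B} {u : B →₀ ℕ} (a : Λ) (h : ∀ b ∈ u.support, b ∈ U) :
    (monomial u a : SS B Λ) ∈ supported Λ (U : Set B) := by
  rw [mem_supported]
  by_cases ha : a = 0
  · subst ha; simp
  · intro b hb
    rw [vars_monomial ha] at hb
    exact_mod_cast h b (by exact_mod_cast hb)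

/-- splitting of monomials -/
theorem split_induction (U : Finset B) {P : SS B Λ → Prop}
    (h0 : ∀ s ∈ supported Λ (U : Set B), ∀ t ∈ supported Λ ((Uᶜ : Finset B) : Set B), P (s * t))
    (ha : ∀ s t, P s → P t → P (s + t)) (s : SS B Λ) : P s := by
  induction s using MvPolynomial.induction_on' with
  | monomial u a =>
    have h := h0 (monomial (u.filter (· ∈ U)) a) (monomial_mem_supp a (fun b hb => by
      rw [Finsupp.support_filter, Finset.mem_filter] at hb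
      exact hb.2)) (monomial (u.filter (fun b => ¬ b ∈ U)) 1)
      (monomial_mem_supp 1 (fun b hb => by
        rw [Finsupp.support_filter, Finset.mem_filter] at hb
        simpa using hb.2))
    rwa [monomial_mul, Finsupp.filter_add_filter_not, mul_one] at h
  | add p q hp hq => exact ha _ _ hp hq

end N2d

end Vale.Agent.P291
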