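import Vale.Agent.P291.HCore
import Vale.Agent.P291.H809.Proj
import Vale.Agent.P291.H216.Kap

/-!
# P291, N2d: the substitution `x_b ↦ x_b + T⁻¹` (`b ∈ U`) with values in Laurent series
-/

set_option linter.unusedSectionVars false

open MvPolynomial

namespace Vale.Agent.P291

namespace N2d

variable {B Λ : Type*} [Fintype B] [DecidableEq B] [CommRing Λ] [IsDomain Λ]

theorem C_eq_single (x : KK B Λ) :
    (HahnSeries.C x : LaurentSeries (KK B Λ)) = HahnSeries.single 0 x := rfl

/-- polynomials in `y` to Laurent series in `T`, `y ↦ T⁻¹` -/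
noncomputable def iot (B Λ : Type*) [CommRing Λ] [IsDomain Λ] :
    Polynomial (SS B Λ) →+* LaurentSeries (KK B Λ) :=
  Polynomial.eval₂RingHom ((HahnSeries.C : KK B Λ →+* LaurentSeries (KK B Λ)).comp
    (algebraMap (SS B Λ) (KK B Λ))) (HahnSeries.single (-1) 1)

theorem iot_monomial (n : ℕ) (a : SS B Λ) :
    iot B Λ (Polynomial.monomial n a) = HahnSeries.single (-(n : ℤ)) (toK a) := by
  have h : ∀ n : ℕ, (HahnSeries.single (-1 : ℤ) (1 : KK B Λ)) ^ n =
      HahnSeries.single (-(n : ℤ)) 1 := by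
    intro n
    rw [HahnSeries.single_pow]
    simp
  simp only [iot, Polynomial.coe_eval₂RingHom, Polynomial.eval₂_monomial, RingHom.comp_apply, h]
  rw [C_eq_single, HahnSeries.single_mul_single]
  simp

theorem iot_coeff (p : Polynomial (SS B Λ)) (m : ℤ) :
    (iot B Λ p).coeff m = if m ≤ 0 then toK (p.coeff (-m).toNat) else 0 := by
  induction p using Polynomial.induction_on' with
  | add p q hp hq =>
    rw [map_add, HahnSeries.coeff_add, hp, hq]
    by_cases h : m ≤ 0
    · simp [h]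
    · simp [h]
  | monomial n a =>
    rw [iot_monomial]
    by_cases h : m = -(n : ℤ)
    · subst h
      simp
    · rw [HahnSeries.coeff_single_of_ne h]
      by_cases h2 : m ≤ 0
      · rw [if_pos h2, Polynomial.coeff_monomial, if_neg]
        · exact (map_zero _).symm
        · intro h3
          apply h
          omega
      · rw [if_neg h2]

/-- the substitution on polynomials -/
noncomputable def thetaS (U : Finset B) : SS B Λ →+* LaurentSeries (KK B Λ) :=
  (iot B Λ).comp (H809.shift Λ U).toRingHom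

theorem thetaS_apply (U : Finset B) (f : SS B Λ) :
    thetaS U f = iot B Λ (H809.shift Λ U f) := rfl

theorem shift_coeff_zero (U : Finset B) (f : SS B Λ) : (H809.shift Λ U f).coeff 0 = f := by
  rw [Polynomial.coeff_zero_eq_eval_zero, H809.eval_shift]

theorem thetaS_coeff_zero (U : Finset B) (f : SS B Λ) : (thetaS U f).coeff 0 = toK f := by
  rw [thetaS_apply, iot_coeff]
  simp [shift_coeff_zero]

theorem thetaS_injective (U : Finset B) :
    Function.Injective (thetaS U : SS B Λ →+* LaurentSeries (KK B Λ)) := by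
  rw [injective_iff_map_eq_zero]
  intro f hf
  have := thetaS_coeff_zero U f
  rw [hf, HahnSeries.coeff_zero] at this
  exact (H216.toK_eq_zero).1 this.symm

/-- the substitution on rational functions -/
noncomputable def Theta (U : Finset B) : KK B Λ →+* LaurentSeries (KK B Λ) :=
  IsFractionRing.lift (A := SS B Λ) (K := KK B Λ) (L := LaurentSeries (KK B Λ))
    (g := thetaS U) (thetaS_injective U)

theorem Theta_toK (U : Finset B) (f : SS B Λ) : Theta U (toK f) = thetaS U f :=
  IsFractionRing.lift_algebraMap _ _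

/-! ### coefficients in a subgroup -/

/-- all coefficients lie in `N` -/
def CIn (N : AddSubgroup (KK B Λ)) (F : LaurentSeries (KK B Λ)) : Prop := ∀ m, F.coeff m ∈ N

theorem CIn.add {N : AddSubgroup (KK B Λ)} {F G : LaurentSeries (KK B Λ)} (hF : CIn N F)
    (hG : CIn N G) : CIn N (F + G) := fun m => by
  rw [HahnSeries.coeff_add]; exact N.add_mem (hF m) (hG m)

theorem CIn.sum {N : AddSubgroup (KK B Λ)} {ι : Type*} {s : Finset ι}
    {F : ι → LaurentSeries (KK B Λ)} (hF : ∀ i ∈ s, CIn N (F i)) : CIn N (∑ i ∈ s, F i) := by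
  intro m
  rw [HahnSeries.coeff_sum]
  exact N.sum_mem fun i hi => hF i hi m

theorem CIn.mul {P N M : AddSubgroup (KK B Λ)} (h : ∀ x ∈ P, ∀ y ∈ N, x * y ∈ M)
    {F G : LaurentSeries (KK B Λ)} (hF : CIn P F) (hG : CIn N G) : CIn M (F * G) := by
  intro m
  rw [HahnSeries.coeff_mul]
  exact M.sum_mem fun ij _ => h _ (hF _) _ (hG _)

/-- polynomials as a subgroup of the rational functions -/
noncomputable def PP0 (B Λ : Type*) [CommRing Λ] [IsDomain Λ] : AddSubgroup (KK B Λ) :=
  (algebraMap (SS B Λ) (KK B Λ)).range.toAddSubgroup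

theorem mem_PP0 {f : KK B Λ} : f ∈ PP0 B Λ ↔ ∃ s : SS B Λ, toK s = f := Iff.rfl

theorem PP0_mul {x y : KK B Λ} (hx : x ∈ PP0 B Λ) (hy : y ∈ PP0 B Λ) : x * y ∈ PP0 B Λ := by
  obtain ⟨s, rfl⟩ := hx
  obtain ⟨t, rfl⟩ := hy
  exact ⟨s * t, map_mul _ _ _⟩

/-- units of the ring of Laurent series with polynomial coefficients -/
def UnS (F : LaurentSeries (KK B Λ)) : Prop :=
  CIn (PP0 B Λ) F ∧ ∃ G, CIn (PP0 B Λ) G ∧ F * G = 1

theorem CIn_one : CIn (PP0 B Λ) 1 := by
  intro m
  rw [HahnSeries.coeff_one]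
  split_ifs
  · exact ⟨1, map_one _⟩
  · exact (PP0 B Λ).zero_mem

theorem UnS_one : UnS (1 : LaurentSeries (KK B Λ)) := ⟨CIn_one, 1, CIn_one, mul_one _⟩

theorem UnS.mul {F G : LaurentSeries (KK B Λ)} (hF : UnS F) (hG : UnS G) : UnS (F * G) := by
  obtain ⟨h1, F', h2, h3⟩ := hF
  obtain ⟨h4, G', h5, h6⟩ := hG
  refine ⟨CIn.mul (fun x hx y hy => PP0_mul hx hy) h1 h4, F' * G',
    CIn.mul (fun x hx y hy => PP0_mul hx hy) h2 h5, ?_⟩
  rw [mul_mul_mul_comm, h3, h6, one_mul]

theorem UnS.prod {ι : Type*} {s : Finset ι} {F : ι → LaurentSeries (KK B Λ)}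
    (hF : ∀ i ∈ s, UnS (F i)) : UnS (∏ i ∈ s, F i) := by
  classical
  induction s using Finset.induction_on with
  | empty => simpa using UnS_one
  | insert a s ha ih =>
    rw [Finset.prod_insert ha]
    exact (hF a (Finset.mem_insert_self _ _)).mul
      (ih fun i hi => hF i (Finset.mem_insert_of_mem hi))

theorem UnS.inv {F : LaurentSeries (KK B Λ)} (hF : UnS F) : UnS F⁻¹ := by
  obtain ⟨h1, G, h2, h3⟩ := hF
  have : F⁻¹ = G := by
    rw [inv_eq_of_mul_eq_one_right h3]
  rw [this]
  exact ⟨h2, F, h1, by rw [mul_comm, h3]⟩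

theorem CIn_thetaS (U : Finset B) (f : SS B Λ) : CIn (PP0 B Λ) (thetaS U f) := by
  intro m
  rw [thetaS_apply, iot_coeff]
  split_ifs
  · exact ⟨_, rfl⟩
  · exact (PP0 B Λ).zero_mem

/-- the geometric series -/
theorem exists_inv (b : SS B Λ) : ∃ G : LaurentSeries (KK B Λ), CIn (PP0 B Λ) G ∧
    (1 + HahnSeries.single (1 : ℤ) (toK b)) * G = 1 := by
  refine ⟨HahnSeries.ofPowerSeries ℤ (KK B Λ) (PowerSeries.mk fun n => toK ((-b) ^ n)), ?_, ?_⟩
  · intro m
    by_cases hm : 0 ≤ m
    · obtain ⟨n, rfl⟩ := Int.eq_ofNat_of_zero_le hm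
      rw [HahnSeries.ofPowerSeries_apply_coeff, PowerSeries.coeff_mk]
      exact ⟨_, rfl⟩
    · rw [HahnSeries.ofPowerSeries_apply, HahnSeries.embDomain_of_notMem_range]
      · exact (PP0 B Λ).zero_mem
      · rintro ⟨n, hn⟩
        apply hm
        rw [← hn]
        simp
  · have h1 : (1 + HahnSeries.single (1 : ℤ) (toK b) : LaurentSeries (KK B Λ)) =
        HahnSeries.ofPowerSeries ℤ (KK B Λ) (1 + PowerSeries.C (toK b) * PowerSeries.X) := by
      rw [map_add, map_one, map_mul, HahnSeries.ofPowerSeries_C, HahnSeries.ofPowerSeries_X,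
        C_eq_single, HahnSeries.single_mul_single]
      simp
    rw [h1, ← map_mul]
    have h2 : (1 + PowerSeries.C (toK b) * PowerSeries.X) *
        (PowerSeries.mk fun n => toK ((-b) ^ n)) = (1 : PowerSeries (KK B Λ)) := by
      rw [add_mul, one_mul, mul_assoc]
      ext n
      rw [map_add, PowerSeries.coeff_C_mul, PowerSeries.coeff_mk]
      cases n with
      | zero => simp
      | succ n =>
        rw [PowerSeries.coeff_succ_X_mul, PowerSeries.coeff_mk, PowerSeries.coeff_one,
          if_neg (Nat.succ_ne_zero n), ← map_mul, ← map_add, pow_succ]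
        rw [show (-b) ^ n * -b + b * (-b) ^ n = 0 by ring, map_zero]
    rw [h2, map_one]

/-- `a + ε T⁻¹` is a unit -/
theorem UnS_lin (a : SS B Λ) (ε : SS B Λ) (hε : ε * ε = 1) :
    UnS (HahnSeries.C (toK a) + HahnSeries.single (-1 : ℤ) (toK ε) : LaurentSeries (KK B Λ)) := by
  have he : toK ε * toK ε = (1 : KK B Λ) := by rw [← map_mul, hε, map_one]
  have key : (HahnSeries.C (toK a) + HahnSeries.single (-1 : ℤ) (toK ε) :
      LaurentSeries (KK B Λ)) = HahnSeries.single (-1 : ℤ) (toK ε) *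
        (1 + HahnSeries.single (1 : ℤ) (toK (ε * a))) := by
    rw [mul_add, mul_one, HahnSeries.single_mul_single, C_eq_single, H216.toK_mul ε a,
      ← mul_assoc, he, one_mul]
    rw [add_comm]
    norm_num
  rw [key]
  refine UnS.mul ?_ ?_
  · refine ⟨?_, HahnSeries.single (1 : ℤ) (toK ε), ?_, ?_⟩
    · intro m
      by_cases h : m = -1
      · rw [h, HahnSeries.coeff_single_same]; exact ⟨_, rfl⟩
      · rw [HahnSeries.coeff_single_of_ne h]; exact (PP0 B Λ).zero_mem
    · intro m
      by_cases h : m = 1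
      · rw [h, HahnSeries.coeff_single_same]; exact ⟨_, rfl⟩
      · rw [HahnSeries.coeff_single_of_ne h]; exact (PP0 B Λ).zero_mem
    · rw [HahnSeries.single_mul_single, he]
      simp
  · obtain ⟨G, h1, h2⟩ := exists_inv (ε * a)
    refine ⟨?_, G, h1, h2⟩
    refine CIn.add CIn_one ?_
    intro m
    by_cases h : m = 1
    · rw [h, HahnSeries.coeff_single_same]; exact ⟨_, rfl⟩
    · rw [HahnSeries.coeff_single_of_ne h]; exact (PP0 B Λ).zero_mem

end N2d

end Vale.Agent.P291
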