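import Vale.Agent.P291.H276.Theta
import Vale.Agent.P291.H276.Kap2

/-!
# P291, N2d: the substitution applied to Hall terms
-/

set_option linter.unusedSectionVars false

open MvPolynomial

namespace Vale.Agent.P291

namespace N2d

variable {I E B Λ : Type*} [Fintype E] [DecidableEq I] [Fintype B] [DecidableEq B] [CommRing Λ]
  [IsDomain Λ]
variable (Q : QD I E B Λ)

theorem iot_C (a : SS B Λ) : iot B Λ (Polynomial.C a) = HahnSeries.C (toK a) := by
  simp [iot]

theorem iot_X : iot B Λ Polynomial.X = HahnSeries.single (-1 : ℤ) (1 : KK B Λ) := by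
  simp [iot]

theorem thetaS_C (U : Finset B) (c : Λ) : thetaS U (C c : SS B Λ) = HahnSeries.C (toK (C c)) := by
  rw [thetaS_apply]
  have : H809.shift Λ U (C c) = Polynomial.C (C c) := by
    simp [H809.shift, MvPolynomial.algebraMap_eq, Polynomial.algebraMap_apply]
  rw [this, iot_C]

/-- indicator of `U` on extended boxes -/
noncomputable def dl (U : Finset B) (o : Option B) : SS B Λ := if inU U o then 1 else 0

theorem thetaS_xo (U : Finset B) (o : Option B) : thetaS U (xo Λ o : SS B Λ) =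
    HahnSeries.C (toK (xo Λ o)) + HahnSeries.single (-1 : ℤ) (toK (dl U o)) := by
  rw [thetaS_apply]
  cases o with
  | none => simp [xo, dl, inU_none]
  | some b =>
    have : H809.shift Λ U (xo Λ (some b)) =
        Polynomial.C (X b) + if b ∈ U then Polynomial.X else 0 := by
      simp [H809.shift, xo]
    rw [this, map_add, iot_C]
    congr 1
    by_cases h : b ∈ U
    · simp only [h, if_true, iot_X, dl, inU_some, map_one]
    · simp only [h, if_false, dl, inU_some, map_zero]

theorem thetaS_X (U : Finset B) (b : B) : thetaS U (X b : SS B Λ) =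
    HahnSeries.C (toK (X b)) + HahnSeries.single (-1 : ℤ) (toK (dl U (some b))) :=
  thetaS_xo U (some b)

theorem single_sub' (m : ℤ) (x y : KK B Λ) : (HahnSeries.single m (x - y) :
    LaurentSeries (KK B Λ)) = HahnSeries.single m x - HahnSeries.single m y := by
  ext n
  rw [HahnSeries.coeff_sub]
  by_cases h : n = m
  · subst h; simp
  · simp [HahnSeries.coeff_single_of_ne h]

theorem toK_sub (f g : SS B Λ) : toK (f - g) = toK f - toK g := map_sub _ _ _

theorem toK_zero : toK (0 : SS B Λ) = 0 := map_zero _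

theorem toK_prod {ι : Type*} (s : Finset ι) (f : ι → SS B Λ) :
    toK (∏ i ∈ s, f i) = ∏ i ∈ s, toK (f i) := map_prod _ _ _

theorem thetaS_xi (U : Finset B) (p : E × B × Option B) : thetaS U (Q.xi p) =
    HahnSeries.C (toK (Q.xi p)) +
      HahnSeries.single (-1 : ℤ) (toK (dl U p.2.2 - dl U (some p.2.1))) := by
  rw [toK_sub, single_sub']
  unfold QD.xi
  simp only [map_add, map_sub, thetaS_xo, thetaS_X, thetaS_C]
  ring

theorem thetaS_diff (U : Finset B) (p : B × B) : thetaS U (X p.1 - X p.2 : SS B Λ) =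
    HahnSeries.C (toK (X p.1 - X p.2)) +
      HahnSeries.single (-1 : ℤ) (toK (dl U (some p.1) - dl U (some p.2))) := by
  rw [toK_sub (dl U _), single_sub']
  simp only [map_sub, thetaS_X]
  ring

theorem dl_sub_zero {U : Finset B} {o o' : Option B} (h : inU U o ↔ inU U o') :
    (dl U o - dl U o' : SS B Λ) = 0 := by
  by_cases h1 : inU U o
  · simp [dl, h1, h.1 h1]
  · have h2 : ¬ inU U o' := fun h2 => h1 (h.2 h2)
    simp [dl, h1, h2]

theorem dl_sub_sq {U : Finset B} {o o' : Option B} (h : ¬ (inU U o ↔ inU U o')) :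
    (dl U o - dl U o' : SS B Λ) * (dl U o - dl U o') = 1 := by
  by_cases h1 : inU U o
  · have h2 : ¬ inU U o' := fun h2 => h ⟨fun _ => h2, fun _ => h1⟩
    simp [dl, h1, h2]
  · have h2 : inU U o' := by
      by_contra h2; exact h ⟨fun h' => absurd h' h1, fun h' => absurd h' h2⟩
    simp [dl, h1, h2]

theorem Theta_PW_fix (U : Finset B) {c : E × B × Option B → Prop} [DecidablePred c]
    (h : ∀ p, c p → (p.2.1 ∈ U ↔ inU U p.2.2)) :
    Theta U (toK (PW Q c)) = HahnSeries.C (toK (PW Q c)) := by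
  rw [Theta_toK]
  unfold PW
  rw [map_prod, toK_prod, map_prod]
  refine Finset.prod_congr rfl fun p hp => ?_
  rw [thetaS_xi, dl_sub_zero, toK_zero, map_zero, add_zero]
  rw [inU_some]
  exact (h p (Finset.mem_filter.1 hp).2).symm

theorem Theta_PR_fix (U : Finset B) {c : B × B → Prop} [DecidablePred c]
    (h : ∀ p, c p → (p.1 ∈ U ↔ p.2 ∈ U)) :
    Theta U (toK (PR Q c)) = HahnSeries.C (toK (PR Q c)) := by
  rw [Theta_toK]
  unfold PR
  rw [map_prod, toK_prod, map_prod]
  refine Finset.prod_congr rfl fun p hp => ?_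
  rw [thetaS_diff, dl_sub_zero, toK_zero, map_zero, add_zero]
  rw [inU_some, inU_some]
  exact h p (Finset.mem_filter.1 hp).2

theorem Theta_PW_cross (U : Finset B) {c : E × B × Option B → Prop} [DecidablePred c]
    (h : ∀ p, c p → ¬ (p.2.1 ∈ U ↔ inU U p.2.2)) : UnS (Theta U (toK (PW Q c))) := by
  rw [Theta_toK]
  unfold PW
  rw [map_prod]
  refine UnS.prod fun p hp => ?_
  rw [thetaS_xi]
  refine UnS_lin _ _ (dl_sub_sq ?_)
  rw [inU_some]
  intro h'
  exact h p (Finset.mem_filter.1 hp).2 h'.symm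

theorem Theta_PR_cross (U : Finset B) {c : B × B → Prop} [DecidablePred c]
    (h : ∀ p, c p → ¬ (p.1 ∈ U ↔ p.2 ∈ U)) : UnS (Theta U (toK (PR Q c))) := by
  rw [Theta_toK]
  unfold PR
  rw [map_prod]
  refine UnS.prod fun p hp => ?_
  rw [thetaS_diff]
  refine UnS_lin _ _ (dl_sub_sq ?_)
  rw [inU_some, inU_some]
  exact h p (Finset.mem_filter.1 hp).2

theorem Theta_kapN (U : Finset B) (g : B → ℕ) :
    Theta U (Q.kapN U g) = HahnSeries.C (Q.kapN U g) := by
  rw [kapN_eq, map_div₀, Theta_PW_fix, Theta_PR_fix, map_div₀]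
  · rintro p ⟨h1, h2, _⟩
    exact ⟨fun _ => h2, fun _ => h1⟩
  · rintro p ⟨h1, h2, _⟩
    exact ⟨fun _ => h2, fun _ => h1⟩

theorem Theta_kapF (U : Finset B) (g : B → ℕ) :
    Theta U (Q.kapF U g) = HahnSeries.C (Q.kapF U g) := by
  rw [kapF_eq, map_div₀, Theta_PW_fix, Theta_PR_fix, map_div₀]
  · rintro p ⟨h1, h2, _⟩
    exact ⟨fun h => absurd h h1, fun h => absurd h h2⟩
  · rintro p ⟨h1, h2, _⟩
    exact ⟨fun h => absurd h h1, fun h => absurd h h2⟩

theorem Theta_kapC (U : Finset B) (g : B → ℕ) : UnS (Theta U (kapC Q U g)) := by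
  unfold kapC
  rw [map_div₀, div_eq_mul_inv]
  exact (Theta_PW_cross Q U fun p hp => hp.1).mul (Theta_PR_cross Q U fun p hp => hp.1).inv

/-- the multiples of `x` by polynomials -/
noncomputable def mulS (x : KK B Λ) : AddSubgroup (KK B Λ) :=
  ((AddMonoidHom.mulRight x).comp (algebraMap (SS B Λ) (KK B Λ)).toAddMonoidHom).range

theorem mem_mulS {x y : KK B Λ} : y ∈ mulS x ↔ ∃ s : SS B Λ, toK s * x = y := Iff.rfl

theorem C_mul_coeff (x : KK B Λ) (F : LaurentSeries (KK B Λ)) (m : ℤ) :
    (HahnSeries.C x * F).coeff m = x * F.coeff m := by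
  rw [HahnSeries.C_mul_eq_smul, HahnSeries.coeff_smul, smul_eq_mul]

/-- the coefficients of `Θ (s kap g)` -/
theorem CIn_term (U : Finset B) (g : B → ℕ) (s : SS B Λ) :
    CIn (mulS (Q.kapN U g * Q.kapF U g)) (Theta U (toK s * Q.kap g)) := by
  rw [kap_split_gen Q U g, map_mul, map_mul, map_mul, Theta_kapN, Theta_kapF, Theta_toK]
  have h1 : CIn (PP0 B Λ) (thetaS U s * Theta U (kapC Q U g)) :=
    CIn.mul (fun x hx y hy => PP0_mul hx hy) (CIn_thetaS U s) (Theta_kapC Q U g).1
  have h2 : thetaS U s * (HahnSeries.C (Q.kapN U g) * HahnSeries.C (Q.kapF U g) *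
      Theta U (kapC Q U g)) = HahnSeries.C (Q.kapN U g * Q.kapF U g) *
      (thetaS U s * Theta U (kapC Q U g)) := by
    rw [map_mul]; ring
  rw [h2]
  intro m
  rw [C_mul_coeff]
  obtain ⟨t, ht⟩ := h1 m
  exact ⟨t, by rw [← ht]; exact mul_comm (algebraMap (SS B Λ) (KK B Λ) t) _⟩

/-! ### coefficientwise action of permutations -/

/-- coefficientwise action -/
noncomputable def hmap (σ : Equiv.Perm B) : LaurentSeries (KK B Λ) →+* LaurentSeries (KK B Λ) where
  toFun F := HahnSeries.map F (((act σ : KK B Λ ≃+* KK B Λ) : KK B Λ →+* KK B Λ) :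
    KK B Λ →ₙ+* KK B Λ)
  map_one' := by
    ext m
    rw [HahnSeries.map_coeff, HahnSeries.coeff_one]
    split_ifs <;> simp
  map_mul' F G := HahnSeries.map_mul _
  map_zero' := by
    ext m; simp [HahnSeries.map_coeff]
  map_add' F G := by
    ext m
    simp [HahnSeries.map_coeff]

theorem hmap_coeff (σ : Equiv.Perm B) (F : LaurentSeries (KK B Λ)) (m : ℤ) :
    (hmap σ F).coeff m = act σ (F.coeff m) := rfl

theorem hmap_C (σ : Equiv.Perm B) (x : KK B Λ) :
    hmap σ (HahnSeries.C x) = HahnSeries.C (act σ x) := by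
  ext m
  rw [hmap_coeff, C_eq_single, C_eq_single]
  by_cases h : m = 0
  · subst h; simp
  · simp [HahnSeries.coeff_single_of_ne h]

theorem hmap_single (σ : Equiv.Perm B) (n : ℤ) (x : KK B Λ) :
    hmap σ (HahnSeries.single n x) = HahnSeries.single n (act σ x) := by
  ext m
  rw [hmap_coeff]
  by_cases h : m = n
  · subst h; simp
  · simp [HahnSeries.coeff_single_of_ne h]

theorem rename_dl (σ : Equiv.Perm B) (U : Finset B) (o : Option B) :
    rename σ (dl U o : SS B Λ) = dl U o := by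
  unfold dl
  by_cases h : inU U o
  · rw [if_pos h, map_one]
  · rw [if_neg h, map_zero]

theorem thetaS_rename {U : Finset B} {σ : Equiv.Perm B} (hσ : ∀ b, σ b ∈ U ↔ b ∈ U)
    (f : SS B Λ) : thetaS U (rename σ f) = hmap σ (thetaS U f) := by
  induction f using MvPolynomial.induction_on with
  | C c => rw [rename_C, thetaS_C, hmap_C, act_toK, rename_C]
  | add f g hf hg => rw [map_add, map_add, map_add, map_add, hf, hg]
  | mul_X f b hf =>
    have h1 : dl U (some (σ b)) = (dl U (some b) : SS B Λ) := by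
      unfold dl
      simp only [inU_some, hσ]
    rw [map_mul, map_mul, map_mul, map_mul, hf, rename_X, thetaS_X, thetaS_X, map_add, hmap_C,
      hmap_single, act_toK, act_toK, rename_X, rename_dl, h1]

/-- `Θ` commutes with permutations preserving `U` -/
theorem Theta_act {U : Finset B} {σ : Equiv.Perm B} (hσ : ∀ b, σ b ∈ U ↔ b ∈ U) (f : KK B Λ) :
    Theta U (act σ f) = hmap σ (Theta U f) := by
  obtain ⟨p, q, hq, rfl⟩ := IsFractionRing.div_surjective (A := SS B Λ) f
  rw [map_div₀, map_div₀]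
  rw [act_toK, act_toK, Theta_toK, Theta_toK, thetaS_rename hσ,
    thetaS_rename hσ]
  have h1 : Theta U (toK p / toK q) = thetaS U p / thetaS U q := by
    rw [map_div₀, Theta_toK, Theta_toK]
  have h2 : hmap σ (thetaS U p / thetaS U q) = hmap σ (thetaS U p) / hmap σ (thetaS U q) :=
    map_div₀ _ _ _
  exact (h2.symm.trans (congrArg (hmap σ) h1.symm))

end N2d

end Vale.Agent.P291
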